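import Crest.Agent.X261.EnP.Pre
import Crest.Agent.X261.Lim.G
import Crest.Agent.X261.BT.Inst
import Crest.Agent.X261.Cov.K
import Crest.Agent.X261.Ans.Man3
import Crest.Agent.X261.Sk.Defs

/-!
# Row 261, EN assembly (helper19), file `Main`

`enK_of : DatStmt → Sk.EnK` (limit + weak Kesten property).
-/

set_option autoImplicit false
set_option linter.dupNamespace false
set_option linter.unusedSectionVars false

open Set Filter Topology MeasureTheory

noncomputable section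

namespace Crest.Agent.X261.EnP

open Crest.Agent.R275.Geo Crest.Agent.R275.Core144 Crest.Agent.R275.GC293
open Crest.Agent.R273.Defs_333 Crest.Agent.R273.Kah_333 Crest.Agent.R273.UCov_914
open Crest.Agent.R281.Kp_487 (KP)
open Crest.Agent.X261.Ans (HA)
open Crest.Agent.X261.Top (Fol)
open Crest.Agent.X261.Rn (wtD Kes)
open Crest.Agent.X261.Pole Crest.Agent.X261.Two Crest.Agent.X261.BT
open Crest.Agent.X261.Cov.K (pullKP pos_pull slow_pull iso_deck)
open Crest.Agent.X261.Cov.E (CM pm overlap isProb_pm countable_fib)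

/-- the target of the geometric side -/
def DatStmt : Prop :=
  ∀ (n : ℕ) (X : Type) [TopologicalSpace X] [T2Space X] [CompactSpace X] [ConnectedSpace X]
    (A : Atl n X) [Finite A.ι], GoodA A → Part A → ∀ (H : KP A) (hH : H.Pos)
    (G : Type) [Group G] [Countable G] (D : MonD A G), ConnectedSpace (D.cov G) →
    ∀ (p : ℕ), 1 ≤ p → p ≤ n → ∀ (F : Fol D p) (h : HM F.L)
      [MeasurableSpace (D.cov G)] [BorelSpace (D.cov G)] (hS : Slow (pullKP D G H)),
      ∃ k0 : ℝ, 0 < k0 ∧ Nonempty (Dat (HA.of (D.atl G)) G (wtD D h)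
        (lsOf (pos_pull D G hH) hS) (Cn p) k0 p)

variable {n : ℕ} {X : Type} [TopologicalSpace X] [T2Space X] {A : Atl n X} [Finite A.ι]
  {G : Type} [Group G] [Countable G] {D : MonD A G} [MeasurableSpace (D.cov G)]
  [BorelSpace (D.cov G)] {H : KP A}

theorem kes {hH : (pullKP D G H).Pos} {hS : Slow (pullKP D G H)} {η : (D.atl G).ι → Cn n → ℝ}
    {p : ℕ} {k0 : ℝ} (E : Dat (HA.of (D.atl G)) G η (lsOf hH hS) (Cn p) k0 p) (hk : 0 < k0)
    (hη : ∀ j, ContinuousOn (η j) ((HA.of (D.atl G)).e j).target) (T : (E.pre hk hη).Out volume) :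
    Kes T.T := by
  borelize X
  have hc : (0 : ℝ) < (p + 1) * 2 ^ (p + 1) := by positivity
  refine ⟨0, ((p + 1) * 2 ^ (p + 1))⁻¹, 0, inv_pos.2 hc, fun Φ x hx h => ?_⟩
  obtain ⟨k, hxk, l, hl⟩ := Dat.exists_level hk hη T Φ hx h
  have hm := mc_pos (p := p) hk l
  have hg : ∀ g ∈ Φ, g • x ∈ E.O (E.σ g k) \ E.S := fun g _ =>
    ⟨(E.O_inv g k x).2 hxk.1, (T.good _ (T.T.M0_inv g x hx)).1⟩
  obtain ⟨ψ, hψ, h1, h2⟩ := (msOf hH hS).kesten (ι := Φ) (Y := fun g => E.Y (E.σ g k) (g.1 • x))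
    (E.asy k x hxk) (fun g => E.asy _ _ (hg g g.2)) (lv_pos l)
    (m := 12 * (p + 1) * 2 ^ (p + 1)) (by positivity) (τ := fun g f y => f (g.1⁻¹ • y))
    (fun g f hf => QQ.iso (iso_deck D H g.1⁻¹) hf)
    (fun g => Eventually.of_forall fun s f _ hf => by
      simp only [Dat.Y, E.t_inv g k x hxk.1]
      exact E.X_inv g k _ (E.t_mem k x hxk.1) s _ f hf) (fun g => hl g g.2) hm
  have h3 := kesten_const (p := p) hk.le (lv_pos l) (m' := mq p 0) (by
    unfold mq; push_cast; linarith)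
  obtain ⟨K, hK, hK0⟩ := hψ.1.exists_cpt
  have hC : CM D (xiM (pullKP D G H) ψ) := ⟨QQ.xi_fin hH hψ, K, hK, by
    rw [← Measure.restrict_apply_univ, QQ.xi_off hH hψ hK.isClosed hK0]; rfl⟩
  have := hC.1
  rcases Φ.eq_empty_or_nonempty with rfl | ⟨g₀, hg₀⟩
  · exact ⟨Finsupp.single 1 1, R189.isProb_single _, fun g hg => absurd hg (Finset.notMem_empty g)⟩
  have h0 : xiM (pullKP D G H) ψ ≠ 0 := fun h0 => by
    obtain ⟨ν, n1, -, n3⟩ := h2 ⟨g₀, hg₀⟩
    have n4 : ν = 0 := le_antisymm (n1.trans_eq h0) (Measure.zero_le _)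
    have := (div_pos hm hc).trans_le (h3.trans n3)
    simp [n4] at this
  refine ⟨_, isProb_pm hC h0, fun g hg => ?_⟩
  obtain ⟨ν, n1, n2, n3⟩ := h2 ⟨g, hg⟩
  have n4 : ν ≤ (xiM (pullKP D G H) ψ).map (g • ·) :=
    n2.trans_eq ((QQ.xi_iso hH (iso_deck D H g⁻¹) hψ).trans (by
      congr 1
      funext y
      simp))
  have hp : 0 < (xiM (pullKP D G H) ψ).real univ :=
    have : NeZero (xiM (pullKP D G H) ψ) := ⟨h0⟩; measureReal_univ_pos
  refine (overlap hC g hC n4 n1 le_rfl h0).trans (sub_le_sub_left ?_ _)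
  have n5 : (xiM (pullKP D G H) ψ).real univ ≤ mc k0 p (lv l) + mc k0 p (lv l) := h1
  have n6 := h3.trans n3
  rw [div_le_iff₀ hc] at n6
  rw [le_div_iff₀ hp, inv_mul_le_iff₀ hc]
  linarith

theorem enK_of (hD : DatStmt) : Sk.EnK := by
  intro n X _ _ _ _ A _ hA P H hH G _ D hc p h1 h2 F h
  have : Countable G := countable_fib D
  borelize (D.cov G)
  obtain ⟨k0, hk, ⟨E⟩⟩ := hD n X A hA P H hH G D hc p h1 h2 F h (slow_pull D G P hH)
  have hη : ∀ j, ContinuousOn (wtD D h j) ((HA.of (D.atl G)).e j).target := fun j =>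
    (((D.pullHM (F := G) h).sm j).continuousOn.log fun z hz =>
      ((D.pullHM (F := G) h).pos j _ (((D.atl G).e j).map_target hz)).ne').neg
  have : Nontrivial (Cn n) := by
    have : Nonempty (Fin n) := ⟨⟨0, by omega⟩⟩
    infer_instance
  have : Countable (HA.of (D.atl G)).ι := inferInstanceAs (Countable (D.atl G).ι)
  obtain ⟨T⟩ := Lim.limStmt (Cn n) volume (D.cov G) (HA.of (D.atl G)) G (wtD D h)
    (Ans.Brg.hol_deck D) hη D.exists_fund (E.pre hk hη)
  exact ⟨T.T, T.wt, T.φ_le, kes E hk hη T⟩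

end Crest.Agent.X261.EnP
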