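import Crest.Agent.X261.Lim.Defs
import Crest.Agent.X261.Two.Kes

/-!
# Row 261, EN assembly (helper19), file `Defs`

`Dat` : everything that the construction of `Lim.Pre` consumes from the pole calculus.
-/

set_option autoImplicit false
set_option linter.dupNamespace false

open Set Filter Topology

noncomputable section

namespace Crest.Agent.X261.EnP

open Crest.Agent.X261.Psh Crest.Agent.X261.Ans Crest.Agent.X261.Lim Crest.Agent.X261.Pole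
  Crest.Agent.X261.Two

variable {E : Type} [NormedAddCommGroup E] [NormedSpace ℂ E] {M : Type} [TopologicalSpace M]

/-- foliated charts `k` with transverse coordinate `t k : O k → B k ⊆ F`, pole families `X k y`
along the plaques, log-weights `lam k` of the frames `dt`, and a two-point functional `U`. -/
structure Dat (A : HA E M) (G : Type) [Group G] [MulAction G M] (η : A.ι → E → ℝ) (L : LS M)
    (F : Type) [NormedAddCommGroup F] [NormedSpace ℂ F] (k0 : ℝ) (p : ℕ) where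
  κ : Type
  O : κ → Set M
  opn : ∀ k, IsOpen (O k)
  dsc : Dsc A (⋃ k, O k)ᶜ
  plr : Plr A (⋃ k, O k)ᶜ
  S : Set M
  thin : Thin A S
  σ : G → κ → κ
  O_inv : ∀ (g : G) k x, g • x ∈ O (σ g k) ↔ x ∈ O k
  S_inv : ∀ (g : G) x, x ∈ S → g • x ∈ S
  t : κ → M → F
  B : κ → Set F
  B_opn : ∀ k, IsOpen (B k)
  t_mem : ∀ k, ∀ x ∈ O k, t k x ∈ B k
  t_hol : ∀ k j, DifferentiableOn ℂ (fun z => t k ((A.e j).symm z)) (ch A j (O k))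
  t_inv : ∀ (g : G) k, ∀ x ∈ O k, t (σ g k) (g • x) = t k x
  /-- `lam k = log |c_k|² + wt_{i(k)}` -/
  lam : κ → M → ℝ
  lam_psh : ∀ k, WP A η (O k) fun x => ((-lam k x : ℝ) : EReal)
  lam_inv : ∀ (g : G) k, ∀ x ∈ O k, lam (σ g k) (g • x) = lam k x
  X : κ → F → PF L
  /-- transport of the constraints -/
  X_inv : ∀ (g : G) k, ∀ y ∈ B k, ∀ s h, ∀ f ∈ (X k y).F s h,
    (fun x => f (g⁻¹ • x)) ∈ (X (σ g k) y).F s h
  /-- ASYM + FIN -/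
  asy : ∀ k, ∀ x ∈ O k \ S, (X k (t k x)).Asy k0 p
  /-- fibre Harnack -/
  inc : ∀ k k', ∀ x ∈ (O k ∩ O k') \ S, ∀ c : ℝ, 0 < c → ∃ μ τ : ℝ, ∀ᶠ s in atTop, ∀ f ∈ L.Q,
    f ∈ (X k (t k x)).F s (c * s) → f ∈ (X k' (t k' x)).F (s + μ) (c * s - τ)
  /-- LAW -/
  law : ∀ k k', ∀ x ∈ (O k ∩ O k') \ S, ∀ ε : ℝ, 0 < ε → ∀ᶠ q : ℝ × M in atTop ×ˢ 𝓝 x, q.2 ∉ S →
    (X k (t k q.2)).dl k0 p q.1 0 - kc k0 p q.1 * lam k q.2 ≤
      (X k' (t k' q.2)).dl k0 p q.1 0 - kc k0 p q.1 * lam k' q.2 + ε * kc k0 p q.1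
  /-- (R) -/
  ray : ∀ k, ∀ y ∈ O k \ S, ∀ l : ℝ, 0 < l → ∀ m : ℕ, 0 < m → ∃ C : ℝ, ∀ᶠ s in atTop,
    ∀ x ∈ O k \ S, ‖t k x - t k y‖ ≤ Real.exp (-s / 2) →
      del (X k (t k x)) (X k (t k y)) k0 p l m (l * s) ≤
        mc k0 p l / m * (l * s) - Ph (X k (t k x)) k0 p l m + C
  D_psh : ∀ k, ∀ c : ℝ, 0 < c → IsPsh (B k) fun y => (X k y).Dl k0 p c 0
  D_inv : ∀ (g : G) k, ∀ y ∈ B k, ∀ c : ℝ, (X (σ g k) y).Dl k0 p c 0 = (X k y).Dl k0 p c 0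
  star : ∀ k k', ∀ x ∈ O k \ S, ∀ y ∈ O k' \ S, ∀ l : ℝ, 0 < l → ∀ m : ℕ, 0 < m →
    Star (X k (t k x)) (X k' (t k' y)) k0 p l m
  U : PF L → PF L → ℝ → ℕ → ℝ → EReal
  U_psh : ∀ k k', ∀ l : ℝ, 0 < l → ∀ m : ℕ, 0 < m → ∀ τ : ℝ,
    IsPsh (B k ×ˢ B k') fun q : F × F => U (X k q.1) (X k' q.2) l m τ
  U_eq : ∀ Y Y' : PF L, Y.Asy k0 p → Y'.Asy k0 p → ∀ l : ℝ, 0 < l → ∀ m : ℕ, 0 < m → ∀ τ : ℝ,
    U Y Y' l m τ = Xi Y Y' k0 p l m τ + ((Ph Y k0 p l m + Ph Y' k0 p l m : ℝ) : EReal)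
  U_symm : ∀ Y Y' l m τ, U Y Y' l m τ = U Y' Y l m τ
  U_inv : ∀ (g : G) k k', ∀ y ∈ B k, ∀ y' ∈ B k', ∀ l m τ,
    U (X (σ g k) y) (X (σ g k') y') l m τ = U (X k y) (X k' y') l m τ

end Crest.Agent.X261.EnP
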