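import Crest.Agent.X261.EnP.Defs
import Crest.Agent.X261.Lim.E
import Crest.Agent.X261.Psh.Hol71

/-!
# Row 261, EN assembly (helper19), file `Pre`

`Dat.pre : Lim.Pre` and the negativity of `Ξ` at a finite level.
-/

set_option autoImplicit false
set_option linter.dupNamespace false
set_option linter.unusedSectionVars false

open Set Filter Topology Finset Metric

noncomputable section

namespace Crest.Agent.X261.EnP

open Crest.Agent.X261.Psh Crest.Agent.X261.Ans Crest.Agent.X261.Lim Crest.Agent.X261.Pole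
  Crest.Agent.X261.Two

/-- the refining sequence -/
def mq (p : ℕ) : ℕ → ℕ
  | 0 => 2 * (12 * (p + 1) * 2 ^ (p + 1))
  | q + 1 => mq p q * (30 * mq p q)

theorem mq_pos (p q : ℕ) : 0 < mq p q := by
  induction q with
  | zero => unfold mq; positivity
  | succ q ih => unfold mq; positivity

/-- the normalisation -/
def al (p q : ℕ) : ℝ := ∑ j ∈ range (mq p q), (1 - (j : ℝ) / mq p q) ^ (p + 1)

theorem al_pos (p q : ℕ) : 0 < al p q :=
  sum_pos (fun j hj => pow_pos (by simpa [lev] using lev_pos one_pos (mem_range.1 hj)) _)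
    ⟨0, mem_range.2 (mq_pos p q)⟩

/-- the level -/
def lv (l : ℕ) : ℝ := l + 1

theorem lv_pos (l : ℕ) : 0 < lv l := Nat.cast_add_one_pos l

/-- the inverse of the total slope -/
def iK (k : ℝ) (p q l : ℕ) : ℝ := (al p q * kc k p (lv l))⁻¹

/-- the Legendre parameter -/
def tq (k : ℝ) (p q l : ℕ) : ℝ := 3 * mc k p (lv l) / mq p q

variable {k0 : ℝ} {p : ℕ}

theorem kc_pos (hk : 0 < k0) (l : ℕ) : 0 < kc k0 p (lv l) := mul_pos hk (pow_pos (lv_pos l) _)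

theorem mc_pos (hk : 0 < k0) (l : ℕ) : 0 < mc k0 p (lv l) := by
  have := lv_pos l
  unfold mc; positivity

theorem iK_pos (hk : 0 < k0) (q l : ℕ) : 0 < iK k0 p q l :=
  inv_pos.2 (mul_pos (al_pos p q) (kc_pos hk l))

theorem iK_sum (hk : 0 < k0) (q l : ℕ) :
    iK k0 p q l * ∑ j ∈ range (mq p q), kc k0 p (lev (lv l) (mq p q) j) = 1 := by
  have : ∑ j ∈ range (mq p q), kc k0 p (lev (lv l) (mq p q) j) = al p q * kc k0 p (lv l) := by
    rw [al, sum_mul]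
    exact sum_congr rfl fun j _ => by simp only [kc, lev, mul_pow]; ring
  rw [this, iK, inv_mul_cancel₀ (mul_pos (al_pos p q) (kc_pos hk l)).ne']

theorem tendsto_lev {m j : ℕ} (hj : j < m) : Tendsto (fun l => lev (lv l) m j) atTop atTop :=
  (tendsto_atTop_add_const_right _ 1 tendsto_natCast_atTop_atTop).atTop_mul_const
    (by simpa [lev] using lev_pos one_pos hj)

theorem sub_two (ξ : EReal) (a b : ℝ) : ξ + ((a + b : ℝ) : EReal) - a - b = ξ := by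
  induction ξ with
  | bot => simp
  | top => rw [EReal.top_add_coe, EReal.top_sub_coe, EReal.top_sub_coe]
  | coe ξ => norm_cast; ring

variable {E : Type} [NormedAddCommGroup E] [NormedSpace ℂ E] [FiniteDimensional ℂ E] {M : Type}
  [TopologicalSpace M] {A : HA E M} {G : Type} [Group G] [MulAction G M] {η : A.ι → E → ℝ}
  {L : LS M} {F : Type} [NormedAddCommGroup F] [NormedSpace ℂ F] [FiniteDimensional ℂ F]

namespace Dat

variable (D : Dat A G η L F k0 p)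

/-- the pole family at a point -/
abbrev Y (k : D.κ) (x : M) : PF L := D.X k (D.t k x)

/-- the one-point weights -/
def ψ (q : ℕ) (k : D.κ) (l : ℕ) (x : M) : EReal :=
  (iK k0 p q l : EReal) * ∑ j ∈ range (mq p q), (D.Y k x).Dl k0 p (lev (lv l) (mq p q) j) 0 +
    ((-D.lam k x : ℝ) : EReal)

/-- their real values -/
def a (q : ℕ) (k : D.κ) (l : ℕ) (x : M) : ℝ :=
  iK k0 p q l * Ph (D.Y k x) k0 p (lv l) (mq p q) - D.lam k x

/-- the two-point weights -/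
def s (q : ℕ) (k k' : D.κ) (l : ℕ) (z : M × M) : EReal :=
  (iK k0 p q l : EReal) * D.U (D.Y k z.1) (D.Y k' z.2) (lv l) (mq p q) (tq k0 p q l) +
    (((-D.lam k z.1 : ℝ) : EReal) + ((-D.lam k' z.2 : ℝ) : EReal))

/-- the normalised two-point functional -/
def Ξ (q : ℕ) (k k' : D.κ) (l : ℕ) (x y : M) : EReal :=
  (iK k0 p q l : EReal) * Two.Xi (D.Y k x) (D.Y k' y) k0 p (lv l) (mq p q) (tq k0 p q l)

variable {D} {q l : ℕ} {k k' : D.κ} {x y : M}

theorem ψ_eq (hx : x ∈ D.O k \ D.S) : D.ψ q k l x = D.a q k l x := by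
  rw [ψ, sum_congr rfl fun j hj => ((D.asy k x hx).coe_dl (lev_pos (lv_pos l) (mem_range.1 hj))
    L.zero_mem).symm, ← coe_sum', ← EReal.coe_mul, ← EReal.coe_add]
  rfl

theorem s_eq (hk : 0 < k0) (hx : x ∈ D.O k \ D.S) (hy : y ∈ D.O k' \ D.S) :
    D.s q k k' l (x, y) = D.Ξ q k k' l x y + ((D.a q k l x + D.a q k' l y : ℝ) : EReal) := by
  rw [s, D.U_eq (D.Y k x) (D.Y k' y) (D.asy k x hx) (D.asy k' y hy) _ (lv_pos l) _ (mq_pos p q),
    coe_mul_add (iK_pos hk q l).le, add_assoc, ← EReal.coe_mul, ← EReal.coe_add, ← EReal.coe_add]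
  congr 2
  unfold a
  ring

theorem xi_eq (hk : 0 < k0) (hx : x ∈ D.O k \ D.S) (hy : y ∈ D.O k' \ D.S) :
    xi (D.s q k k' l) (D.ψ q k l) (D.ψ q k' l) x y = D.Ξ q k k' l x y := by
  rw [xi, s_eq hk hx hy, ψ_eq hx, ψ_eq hy, sub_two]

theorem ψ_psh (hk : 0 < k0) : WP A η (D.O k) (D.ψ q k l) := fun j =>
  ((((IsPsh.sum (range (mq p q)) fun _ hi => Hol.comp_hol (D.B_opn k)
    (D.D_psh k _ (lev_pos (lv_pos l) (mem_range.1 hi))) (D.t_hol k j)
      fun _ hz => D.t_mem k _ hz.2).smul (iK_pos hk q l).le).add (D.lam_psh k j))).congr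
        fun _ _ => (add_assoc _ _ _).symm

theorem s_psh (hk : 0 < k0) : WP (A.prod A) (e2 η) (D.O k ×ˢ D.O k') (D.s q k k' l) := fun j =>
  (((Hol.comp_hol ((D.B_opn k).prod (D.B_opn k'))
    (D.U_psh k k' _ (lv_pos l) _ (mq_pos p q) (tq k0 p q l))
    (φ := fun z : E × E => (D.t k ((A.e j.1).symm z.1), D.t k' ((A.e j.2).symm z.2)))
    (((D.t_hol k j.1).comp differentiableOn_fst fun _ hz => ⟨hz.1.1, hz.2.1⟩).prodMk
      ((D.t_hol k' j.2).comp differentiableOn_snd fun _ hz => ⟨hz.1.2, hz.2.2⟩))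
    fun _ hz => ⟨D.t_mem k _ hz.2.1, D.t_mem k' _ hz.2.2⟩).smul (iK_pos hk q l).le).add
      (wp_prod (D.lam_psh k) (D.lam_psh k') j)).congr fun _ _ => (add_assoc _ _ _).symm

theorem law_a (hk : 0 < k0) (q : ℕ) (hx : x ∈ (D.O k ∩ D.O k') \ D.S) {ε : ℝ} (hε : 0 < ε) :
    ∀ᶠ w : ℕ × M in atTop ×ˢ 𝓝 x, w.2 ∈ D.O k ∩ D.O k' ∧
      (w.2 ∉ D.S → D.a q k w.1 w.2 ≤ D.a q k' w.1 w.2 + ε) := by
  have h1 : ∀ᶠ w : ℕ × M in atTop ×ˢ 𝓝 x, ∀ j ∈ range (mq p q), _ :=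
    (eventually_all_finset _).2 fun j hj =>
      ((tendsto_lev (mem_range.1 hj)).prodMap tendsto_id).eventually (D.law k k' x hx ε hε)
  filter_upwards [h1, tendsto_snd.eventually (((D.opn k).inter (D.opn k')).mem_nhds hx.1)]
    with w h2 h3
  refine ⟨h3, fun hw => ?_⟩
  have h4 := mul_le_mul_of_nonneg_left (sum_le_sum fun j hj => h2 j hj hw)
    (iK_pos (p := p) hk q w.1).le
  have h5 := iK_sum (p := p) hk q w.1
  simp only [Prod.map, id, sum_add_distrib, sum_sub_distrib, ← sum_mul, ← mul_sum] at h4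
  unfold a Ph
  generalize ∑ j ∈ range (mq p q), kc k0 p (lev (lv w.1) (mq p q) j) = K at h4 h5
  have h6 : ∀ r, iK k0 p q w.1 * (K * r) = r := fun r => by rw [← mul_assoc, h5, one_mul]
  simp only [mul_add, mul_sub, h6, mul_comm ε] at h4
  exact h4

theorem Ξ_chart {k₂ : D.κ} (hx : x ∈ (D.O k ∩ D.O k') \ D.S) :
    D.Ξ q k k₂ l x y = D.Ξ q k' k₂ l x y := by
  have key : ∀ {k k' : D.κ}, x ∈ (D.O k ∩ D.O k') \ D.S → ∀ c, 0 < c → ∀ a ∈ L.Q,
      (D.Y k x).cst k0 p c a ≤ (D.Y k' x).cst k0 p c a := fun {k k'} hx c hc a ha => by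
    obtain ⟨μ, τ, h⟩ := D.inc k k' x hx c hc
    exact cst_le_cst (D.asy k x ⟨hx.1.1, hx.2⟩) (D.asy k' x ⟨hx.1.2, hx.2⟩) hc ha h
  unfold Ξ
  rw [Xi_congr (fun j hj a ha => le_antisymm (key hx _ (lev_pos (lv_pos l) hj) a ha)
    (key ⟨⟨hx.1.2, hx.1.1⟩, hx.2⟩ _ (lev_pos (lv_pos l) hj) a ha)) fun _ _ _ _ => rfl]

theorem Ξ_nonpos (hk : 0 < k0) (hx : x ∈ D.O k \ D.S) (hy : y ∈ D.O k' \ D.S) :
    D.Ξ q k k' l x y ≤ 0 :=
  mul_nonpos_of_nonneg_of_nonpos (EReal.coe_nonneg.2 (iK_pos hk q l).le)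
    (Xi_nonpos (D.asy k x hx) (D.asy k' y hy) (lv_pos l) (mq_pos p q))

theorem Ξ_tri (hk : 0 < k0) {k₃ : D.κ} {z : M} (hx : x ∈ D.O k \ D.S) (hy : y ∈ D.O k' \ D.S)
    (hz : z ∈ D.O k₃ \ D.S) : D.Ξ q k k₃ l x z ≤ ((10 * mq p q * al p (q + 1) / al p q : ℝ) : EReal) *
      max (D.Ξ (q + 1) k k' l x y) (D.Ξ (q + 1) k' k₃ l y z) := by
  have hm := mq_pos p q
  have hm1 := mq_pos p (q + 1)
  have h1 := Xi_tri (D.asy k x hx) (D.asy k' y hy) (D.asy k₃ z hz) (lv_pos l) hm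
    (r := 30 * mq p q) (by positivity) (D.star k k' x hx y hy _ (lv_pos l) _ hm1)
    (D.star k' k₃ y hy z hz _ (lv_pos l) _ hm1) (t' := tq k0 p (q + 1) l)
    (div_pos (mul_pos three_pos (mc_pos hk l)) (Nat.cast_pos.2 hm1))
    (lam := ((30 * mq p q : ℕ) : ℝ) / 3) (by positivity) (par_ok (mc_pos hk l).le hm le_rfl)
  have h2 : Monotone fun ξ : EReal => (iK k0 p (q + 1) l : EReal) * ξ := fun _ _ h =>
    mul_le_mul_of_nonneg_left h (EReal.coe_nonneg.2 (iK_pos hk _ l).le)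
  unfold Ξ
  rw [← h2.map_max, ← mul_assoc, ← EReal.coe_mul]
  refine (mul_le_mul_of_nonneg_left h1 (EReal.coe_nonneg.2 (iK_pos hk q l).le)).trans (le_of_eq ?_)
  rw [← mul_assoc, ← EReal.coe_mul]
  congr 2
  have := al_pos p q
  have := al_pos p (q + 1)
  have := kc_pos (p := p) hk l
  unfold iK
  push_cast
  field_simp
  ring

/-- the Lelong number -/
def cq (p q : ℕ) : ℝ := 4 * (p + 1) / (mq p q * al p q)

theorem cq_pos (p q : ℕ) : 0 < cq p q := by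
  have := al_pos p q
  have := mq_pos p q
  unfold cq; positivity

theorem ray_s (hk : 0 < k0) (q l : ℕ) (hy : y ∈ D.O k \ D.S) : ∃ C : ℝ, ∀ᶠ σ in atTop,
    ∀ x ∈ D.O k \ D.S, ‖D.t k x - D.t k y‖ ≤ Real.exp (-σ / 2) →
      D.s q k k l (x, y) ≤ ((C - cq p q / 2 * σ - D.lam k x : ℝ) : EReal) := by
  obtain ⟨C, hC⟩ := D.ray k y hy _ (lv_pos l) _ (mq_pos p q)
  refine ⟨iK k0 p q l * C + D.a q k l y, ?_⟩
  filter_upwards [hC, eventually_ge_atTop 0] with σ h1 h0 x hx h2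
  rw [s_eq hk hx hy]
  refine (add_le_coe (coe_mul_le (iK_pos hk q l).le (Xi_le (mul_nonneg (lv_pos l).le h0)))
    le_rfl).trans (EReal.coe_le_coe_iff.2 ?_)
  have h3 := mul_le_mul_of_nonneg_left (h1 x hx h2) (iK_pos (p := p) hk q l).le
  have h4 : iK k0 p q l * (mc k0 p (lv l) / mq p q * (lv l * σ)) = cq p q / 4 * σ := by
    have := al_pos p q
    have := mq_pos p q
    have := kc_pos (p := p) hk l
    rw [div_mul_eq_mul_div, ← mul_assoc (mc _ _ _), mc_mul]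
    unfold iK cq
    field_simp
  have h5 : iK k0 p q l * (tq k0 p q l * (lv l * σ)) = 3 * (cq p q / 4 * σ) := by
    rw [← h4, tq]; ring
  unfold a
  simp only [mul_add, mul_sub] at h3 ⊢
  linarith

theorem pole (hk : 0 < k0) (hη : ∀ j, ContinuousOn (η j) (A.e j).target) (q l : ℕ) (j : A.ι)
    (hy : y ∈ D.O k \ D.S) (hj : y ∈ (A.e j).source) {c' : ℝ} (hc : c' < cq p q) (m : ℝ) :
    ∀ᶠ r : ℝ in 𝓝[>] (0 : ℝ), ∀ z, ‖z - A.e j y‖ = r →
      D.s q k k l ((A.e j).symm z, y) ≤ ((m + c' * Real.log r : ℝ) : EReal) := by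
  obtain ⟨C, hC⟩ := ray_s hk q l hy
  have hO := (isOpen_ch A j (D.opn k)).mem_nhds ((mem_ch hj).2 hy.1)
  obtain ⟨Λ, hΛ, h1⟩ := ((D.t_hol k j).differentiableAt hO).isBigO_sub.exists_pos
  have h2 := (HA.tendsto_symm hj).eventually ((D.lam_psh k).usc hη (D.opn k) hy.1 _
    (lt_coe_add le_rfl one_pos))
  obtain ⟨δ, hδ, h3⟩ := Metric.eventually_nhds_iff_ball.1 (h1.bound.and (h2.and hO))
  have t1 : Tendsto (fun r : ℝ => Real.log r) (𝓝[>] 0) atBot := Real.tendsto_log_nhdsGT_zero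
  have t2 : Tendsto (fun r : ℝ => -2 * (Real.log (2 * Λ) + Real.log r)) (𝓝[>] 0) atTop :=
    (tendsto_atBot_add_const_left _ _ t1).const_mul_atBot_of_neg (by norm_num)
  filter_upwards [t2.eventually hC, Ioo_mem_nhdsGT (half_pos hδ),
    (t1.const_mul_atBot (sub_pos.2 hc)).eventually (eventually_le_atBot
      (m - C - cq p q * Real.log (2 * Λ) - (-D.lam k y + 1)))] with r e1 e2 e3 z hz
  have hzb : z ∈ ball (A.e j y) (2 * r) := by rw [mem_ball_iff_norm, hz]; linarith [e2.1]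
  have hb : ball (A.e j y) (2 * r) ⊆ ball (A.e j y) δ := ball_subset_ball (by linarith [e2.2])
  have hz' : z ∈ ch A j (D.O k) := (h3 z (hb hzb)).2.2
  refine ((s_psh hk).slice hy.1).le_of_circ hη (D.opn k) D.thin.circ hz'.2
    (g := fun _ => ((m + c' * Real.log r : ℝ) : EReal)) upperSemicontinuousAt_const ?_
  rw [← map_symm hz'.1, eventually_map]
  filter_upwards [isOpen_ball.mem_nhds hzb] with w hw hS
  obtain ⟨g1, g2, g3⟩ := h3 w (hb hw)
  rw [(A.e j).left_inv hj] at g1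
  refine (e1 _ ⟨g3.2, hS⟩ (g1.trans ?_)).trans (EReal.coe_le_coe_iff.2 ?_)
  · rw [show -(-2 * (Real.log (2 * Λ) + Real.log r)) / 2 = Real.log (2 * Λ) + Real.log r by ring,
      Real.exp_add, Real.exp_log (by positivity), Real.exp_log e2.1]
    nlinarith [mem_ball_iff_norm.1 hw]
  · have := EReal.coe_lt_coe_iff.1 g2
    nlinarith

variable (D) in
/-- **the finite level two-point data** -/
def pre (hk : 0 < k0) (hη : ∀ j, ContinuousOn (η j) (A.e j).target) : Pre A G η where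
  κ := D.κ
  O := D.O
  opn := D.opn
  dsc := D.dsc
  plr := D.plr
  S := D.S
  thin := D.thin
  σ := D.σ
  O_inv := D.O_inv
  S_inv := D.S_inv
  ψ := D.ψ
  s := D.s
  lam q := 10 * mq p q * al p (q + 1) / al p q
  c := cq p
  lam_pos q := by
    have := al_pos p q
    have := al_pos p (q + 1)
    have := mq_pos p q
    positivity
  c_pos := cq_pos p
  ψ_psh _ _ _ := ψ_psh hk
  s_psh _ _ _ _ := s_psh hk
  ψ_inv q g k l x hx := by
    simp only [ψ, Y, D.t_inv g k x hx, D.lam_inv g k x hx, D.D_inv g k _ (D.t_mem k x hx)]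
  s_inv q g k k' l x hx y hy := by
    simp only [s, Y, D.t_inv g k x hx, D.lam_inv g k x hx, D.t_inv g k' y hy, D.lam_inv g k' y hy,
      D.U_inv g k k' _ (D.t_mem k x hx) _ (D.t_mem k' y hy)]
  s_symm q k k' l x _ y _ := by simp only [s]; rw [D.U_symm, add_comm ((-D.lam k x : ℝ) : EReal)]
  fin q k l x hx := by rw [ψ_eq hx]; exact EReal.coe_ne_bot _
  law₁ q k k' x hx ε hε := (law_a hk q hx hε).mono fun w hw hS => by
    rw [ψ_eq ⟨hw.1.1, hS⟩, ψ_eq ⟨hw.1.2, hS⟩, ← EReal.coe_add, EReal.coe_le_coe_iff]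
    exact hw.2 hS
  law₂ q k₁ k₁' k₂ x hx y hy ε hε := by
    filter_upwards [(tendsto_id.prodMap (continuous_fst.tendsto (x, y))).eventually
      (law_a hk q hx hε), tendsto_snd.eventually ((continuous_snd.tendsto (x, y)).eventually
        ((D.opn k₂).mem_nhds hy.1))] with w h1 h2 h3 h4
    simp only [Prod.map, id] at h1
    have h5 := h1.2 h3
    rw [← w.2.eta, s_eq hk ⟨h1.1.1, h3⟩ ⟨h2, h4⟩, s_eq hk ⟨h1.1.2, h3⟩ ⟨h2, h4⟩,
      Ξ_chart ⟨h1.1, h3⟩, add_assoc, ← EReal.coe_add]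
    exact add_le_add le_rfl (EReal.coe_le_coe_iff.2 (by linarith))
  le q k k' l x hx y hy := by
    rw [s_eq hk hx hy, ψ_eq hx, ψ_eq hy, ← EReal.coe_add]
    exact (add_le_add (Ξ_nonpos hk hx hy) le_rfl).trans (zero_add _).le
  U q k₁ k₂ k₃ x hx y hy z hz ε hε := Eventually.of_forall fun l => by
    rw [xi_eq hk hx hz, xi_eq hk hx hy, xi_eq hk hy hz]
    exact (Ξ_tri hk hx hy hz).trans (le_add_of_nonneg_right (EReal.coe_nonneg.2 hε.le))
  R q k l j y hy hj c' hc m := (pole hk hη q l j hy hj hc m).frequently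

/-- negativity of the limit functional is seen at a finite level -/
theorem exists_level [MeasurableSpace E] {μ : MeasureTheory.Measure E} (hk : 0 < k0)
    (hη : ∀ j, ContinuousOn (η j) (A.e j).target) (T : (D.pre hk hη).Out μ) (Φ : Finset G)
    (hx : x ∈ T.T.M0) (h : ∀ g ∈ Φ, T.T.Xi 0 x (g • x) < 0) : ∃ k, x ∈ D.O k \ D.S ∧ ∃ l : ℕ,
      ∀ g ∈ Φ, Two.Xi (D.Y k x) (D.Y (D.σ g k) (g • x)) k0 p (lv l) (mq p 0) (tq k0 p 0 l) < 0 := by
  obtain ⟨h1, k, h2⟩ := T.good x hx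
  have neg : ∀ {c : ℝ} {ξ : EReal}, 0 < c → (c : EReal) * ξ < 0 → ξ < 0 := fun hc h =>
    lt_of_not_ge fun h' => h.not_ge (mul_nonneg (EReal.coe_nonneg.2 hc.le) h')
  have h3 : ∀ g ∈ Φ, ∀ᶠ j in atTop, Two.Xi (D.Y k x) (D.Y (D.σ g k) (g • x)) k0 p (lv (T.l j))
      (mq p 0) (tq k0 p 0 (T.l j)) < 0 := fun g hg => by
    have h4 : g • x ∈ D.O (D.σ g k) \ D.S :=
      ⟨(D.O_inv g k x).2 h2, (T.good _ (T.T.M0_inv g x hx)).1⟩
    have h5 := h g hg
    rw [T.Xi 0 k (D.σ g k) x ⟨h2, h1⟩ _ h4] at h5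
    filter_upwards [eventually_lt_of_limsup_lt (neg (T.w_pos 0) h5)] with j hj
    exact neg (iK_pos hk 0 _) ((xi_eq hk ⟨h2, h1⟩ h4).symm.trans_lt hj)
  obtain ⟨j, hj⟩ := ((eventually_all_finset Φ).2 h3).exists
  exact ⟨k, ⟨h2, h1⟩, _, hj⟩

end Dat

end Crest.Agent.X261.EnP
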